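import Mathlib

/-! # P057: the numbers for the block with the Vandermonde polynomial -/

namespace Vale.Agent.P057.H664

open Real

theorem exists_v (θ : ℝ) (hθ : 0 < θ) : ∃ v : ℕ, 2 ≤ v ∧
    Real.log (v.factorial : ℝ) ≤ θ * ((v * (v - 1) / 2 : ℕ) : ℝ) := by
  have h := Real.isLittleO_log_id_atTop.bound (c := θ / 4) (by positivity)
  rw [Filter.eventually_atTop] at h
  obtain ⟨B, hB⟩ := h
  obtain ⟨v, hv⟩ := exists_nat_ge (max B 2)
  have hvB : B ≤ v := (le_max_left _ _).trans hv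
  have hv2 : (2 : ℝ) ≤ v := (le_max_right _ _).trans hv
  have hv2' : 2 ≤ v := by exact_mod_cast hv2
  refine ⟨v, hv2', ?_⟩
  have h1 := hB v hvB
  simp only [id, Real.norm_eq_abs] at h1
  rw [abs_of_nonneg (by positivity : (0 : ℝ) ≤ v)] at h1
  have h1' := (le_abs_self _).trans h1
  have h2 : Real.log (v.factorial : ℝ) ≤ v * Real.log v := by
    have : (v.factorial : ℝ) ≤ (v : ℝ) ^ v := by exact_mod_cast Nat.factorial_le_pow v
    calc Real.log (v.factorial : ℝ) ≤ Real.log ((v : ℝ) ^ v) :=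
          Real.log_le_log (by exact_mod_cast Nat.factorial_pos v) this
      _ = v * Real.log v := by rw [Real.log_pow]
  have h3 : (((v * (v - 1) / 2 : ℕ)) : ℝ) = (v : ℝ) * (v - 1) / 2 := by
    rw [Nat.cast_div (Nat.even_mul_pred_self v).two_dvd (by norm_num), Nat.cast_mul,
      Nat.cast_sub (by omega)]
    norm_num
  rw [h3]
  nlinarith [mul_le_mul_of_nonneg_left h1' (by positivity : (0 : ℝ) ≤ v),
    mul_nonneg (mul_nonneg hθ.le (by positivity : (0 : ℝ) ≤ v)) (by linarith : (0 : ℝ) ≤ v - 2)]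

theorem num (θ : ℝ) (hθ : 0 < θ) : ∃ v : ℕ, 2 ≤ v ∧ ∃ D0 : ℕ, ∀ D : ℕ, D0 ≤ D →
    ((D / (v * (v - 1) / 2) + 1 : ℕ) : ℝ) * Real.log (v.factorial : ℝ) + Real.log 2 ≤
      θ * D * Real.log 2 ∧
    ∃ L w : ℕ, (D / (v * (v - 1) / 2) + 1) * (v * (v - 1) / 2) < L ∧
      L ^ (((D / (v * (v - 1) / 2) + 1) * (v * (v - 1) / 2)) *
        ((D / (v * (v - 1) / 2) + 1) * (v * (v - 1) / 2))) < 2 ^ w ∧
      2 * ((((D / (v * (v - 1) / 2) + 1) * (v * (v - 1) / 2) : ℕ)) : ℝ) ^ 2 *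
        ((w + 1) * Real.log ((2 ^ (D + 2) * v.factorial ^ (D + 1) * (D + 1).factorial : ℕ) : ℝ)) <
          L ∧
      v.factorial * L ≤ D ^ 10 ∧ v.factorial * (2 * D + 4) ≤ D ^ 10 := by
  have hl2 : 0 < Real.log 2 := Real.log_pos (by norm_num)
  obtain ⟨v, hv, hvθ⟩ := exists_v (θ * Real.log 2 / 2) (by positivity)
  obtain ⟨E, hE⟩ : ∃ E, E = v * (v - 1) / 2 := ⟨_, rfl⟩
  obtain ⟨N, hN⟩ : ∃ N, N = v.factorial := ⟨_, rfl⟩
  have hE0 : 0 < E := by
    rw [hE]
    have : 2 ≤ v * (v - 1) := by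
      calc 2 = 2 * 1 := by norm_num
        _ ≤ v * (v - 1) := Nat.mul_le_mul hv (by omega)
    omega
  have hN0 : 0 < N := hN ▸ Nat.factorial_pos v
  obtain ⟨B, hB⟩ := exists_nat_ge ((Real.log N + Real.log 2) / (θ * Real.log 2 / 2))
  refine ⟨v, hv, B + E + N + 35, fun D hD => ?_⟩
  rw [← hE, ← hN]
  rw [← hE, ← hN] at hvθ
  have hDE : E ≤ D := by omega
  have hDN : N ≤ D := by omega
  have hD35 : 35 ≤ D := by omega
  have hDB : B ≤ D := by omega
  have hD35r : (35 : ℝ) ≤ D := by exact_mod_cast hD35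
  constructor
  · have h1 : (Real.log N + Real.log 2) ≤ D * (θ * Real.log 2 / 2) := by
      have : (Real.log N + Real.log 2) / (θ * Real.log 2 / 2) ≤ D :=
        hB.trans (by exact_mod_cast hDB)
      rwa [div_le_iff₀ (by positivity)] at this
    have h2 : ((D / E : ℕ) : ℝ) * E ≤ D := by exact_mod_cast Nat.div_mul_le_self D E
    have h3 : ((D / E : ℕ) : ℝ) * Real.log N ≤ (θ * Real.log 2 / 2) * D := by
      calc ((D / E : ℕ) : ℝ) * Real.log N ≤ ((D / E : ℕ) : ℝ) * (θ * Real.log 2 / 2 * E) :=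
            mul_le_mul_of_nonneg_left hvθ (Nat.cast_nonneg _)
        _ = (θ * Real.log 2 / 2) * (((D / E : ℕ) : ℝ) * E) := by ring
        _ ≤ (θ * Real.log 2 / 2) * D := mul_le_mul_of_nonneg_left h2 (by positivity)
    push_cast

    nlinarith
  · obtain ⟨d, hd⟩ : ∃ d, d = (D / E + 1) * E := ⟨_, rfl⟩
    rw [← hd]
    have hd1 : d ≤ 2 * D := by
      rw [hd, add_mul, one_mul]
      have := Nat.div_mul_le_self D E
      omega
    have hd0 : 0 < d := by
      rw [hd]
      positivity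
    refine ⟨D ^ 9, 9 * (d * d) * D, ?_, ?_, ?_, ?_, ?_⟩
    · calc d ≤ 2 * D := hd1
        _ < D * D := Nat.mul_lt_mul_of_pos_right (by omega) (by omega)
        _ = D ^ 2 := by ring
        _ ≤ D ^ 9 := Nat.pow_le_pow_right (by omega) (by norm_num)
    · have h1 : D < 2 ^ D := Nat.lt_two_pow_self
      calc (D ^ 9) ^ (d * d) = D ^ (9 * (d * d)) := by rw [← pow_mul]
        _ < (2 ^ D) ^ (9 * (d * d)) := Nat.pow_lt_pow_left h1 (by positivity)
        _ = 2 ^ (9 * (d * d) * D) := by rw [← pow_mul]; ring_nf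
    · have hlog : Real.log ((2 ^ (D + 2) * N ^ (D + 1) * (D + 1).factorial : ℕ) : ℝ) ≤
          4 * (D : ℝ) ^ 2 := by
        push_cast
        have hN0r : (0 : ℝ) < N := by exact_mod_cast hN0
        have hf0 : (0 : ℝ) < ((D + 1).factorial : ℝ) := by exact_mod_cast Nat.factorial_pos _
        rw [Real.log_mul (by positivity) hf0.ne', Real.log_mul (by positivity) (by positivity),
          Real.log_pow, Real.log_pow]
        have e1 : Real.log 2 ≤ 1 := by
          have := Real.log_le_sub_one_of_pos (show (0 : ℝ) < 2 by norm_num)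
          linarith
        have e2 : Real.log N ≤ D := by
          have h1 := Real.log_le_sub_one_of_pos hN0r
          have h2 : (N : ℝ) ≤ D := by exact_mod_cast hDN
          linarith
        have e3 : Real.log ((D + 1).factorial : ℝ) ≤ (D + 1) * D := by
          have h1 : ((D + 1).factorial : ℝ) ≤ ((D : ℝ) + 1) ^ (D + 1) := by
            exact_mod_cast Nat.factorial_le_pow (D + 1)
          have h2 := Real.log_le_log hf0 h1
          rw [Real.log_pow] at h2
          have h3 := Real.log_le_sub_one_of_pos (show (0 : ℝ) < (D : ℝ) + 1 by positivity)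
          push_cast at h2
          nlinarith
        push_cast
        nlinarith [mul_le_mul_of_nonneg_left e1 (by positivity : (0 : ℝ) ≤ (D : ℝ) + 2),
          mul_le_mul_of_nonneg_left e2 (by positivity : (0 : ℝ) ≤ (D : ℝ) + 1)]
      have hdr : (d : ℝ) ≤ 2 * D := by exact_mod_cast hd1
      have hd0r : (0 : ℝ) < d := by exact_mod_cast hd0
      have hd2 : (d : ℝ) ^ 2 ≤ 4 * (D : ℝ) ^ 2 := by nlinarith
      have hw : ((9 * (d * d) * D : ℕ) : ℝ) + 1 ≤ 37 * (D : ℝ) ^ 3 := by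
        push_cast
        have h1 : (9 : ℝ) * (d * d) * D ≤ 36 * (D : ℝ) ^ 3 := by
          calc (9 : ℝ) * (d * d) * D = 9 * (d : ℝ) ^ 2 * D := by ring
            _ ≤ 9 * (4 * (D : ℝ) ^ 2) * D := by gcongr
            _ = 36 * (D : ℝ) ^ 3 := by ring
        have h2 : (1 : ℝ) ≤ (D : ℝ) ^ 3 := one_le_pow₀ (by linarith)
        linarith
      have hl0 : 0 ≤ Real.log ((2 ^ (D + 2) * N ^ (D + 1) * (D + 1).factorial : ℕ) : ℝ) :=
        Real.log_natCast_nonneg _
      calc 2 * (d : ℝ) ^ 2 * ((((9 * (d * d) * D : ℕ)) + 1) *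
            Real.log ((2 ^ (D + 2) * N ^ (D + 1) * (D + 1).factorial : ℕ) : ℝ))
          ≤ 2 * (4 * (D : ℝ) ^ 2) * ((37 * (D : ℝ) ^ 3) * (4 * (D : ℝ) ^ 2)) := by
            gcongr
        _ = 1184 * (D : ℝ) ^ 7 := by ring
        _ < (D : ℝ) ^ 2 * (D : ℝ) ^ 7 := by
            apply mul_lt_mul_of_pos_right _ (by positivity)
            nlinarith
        _ = ((D ^ 9 : ℕ) : ℝ) := by push_cast; ring
    · calc N * D ^ 9 ≤ D * D ^ 9 := Nat.mul_le_mul_right _ hDN
        _ = D ^ 10 := by ring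
    · calc N * (2 * D + 4) ≤ D * (D * D) := Nat.mul_le_mul hDN (by nlinarith)
        _ = D ^ 3 := by ring
        _ ≤ D ^ 10 := Nat.pow_le_pow_right (by omega) (by norm_num)

end Vale.Agent.P057.H664
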